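import Mathlib

/-!
# Row 286, LL Section 6 (global scalar-trial accuracy): deterministic one-dimensional lemmas

Owner: helper292.   Prefix `gl_det_`.   Mathlib only.

* `gl_det_layer`    layer cake on a probability space: `∫ f = ∫_0^M (1 - μ{f ≤ t}) dt` for `0 ≤ f ≤ M`
* `gl_det_qt_prob`  `∫ |K - K'| dμ = ∫_0^Q |μ{K ≤ t} - μ{K' ≤ t}| dt` for monotone `K, K' : ℝ → [0,Q]`
* `gl_det_qt`       (QT) the same for clocks monotone on `(0,1)`, Lebesgue measure, interval integrals: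
                    "the `L¹` distance between quantiles equals that between their time distributions"
* `gl_det_gp`       (GP) `g = α₁ - α₂`, `α_i` monotone with values in `[0,1]`, `P s = ∫_s^Q g`, `0 < a ≤ Q`:
                    `∫_0^Q |g| ≤ 3 a + (2 / a) ∫_0^Q |P|`
* `GlPot κ M em ep a St e H`   deterministic data at a minimiser of the constant box `κ ≤ α' ≤ M` on the radius interval `[0,2]`
                    (density `a = α'`, `St s = S_{α s}`, `e s = e(α s) ∈ [em,ep]`, potential `H`, `H' = e (s - St)`, bang-bang rule)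
* `GlPot.neg_len` (POT i), `GlPot.nonfloor_abs` (POT ii: `|St - s| ≤ 1/M` where `H ≤ 0`), `GlPot.mismatch` (POT iii, integrated:
                    `∫ (St - s)² a ≤ 1/M² + 8 κ`), `GlPot.H_lower` (POT iv: `H ≥ - 6 ep / M²`)
* `GlPot.loc`       (LOC) `|St s - s₀| ≤ C' h` for `|s - s₀| ≤ h`, `s₀` nonfloor, `1/M ≤ h`, any `C' > 2 + 8 ep / em`, room `C' h`
* `glDist`, `gl_det_dist_mono`, `gl_det_dist_mem`, `gl_det_qt_dist`, `gl_det_gp_dist`
* `gl_det_mass`     (MASS) the area argument: `K v₀ ≥ η`, `t v ≤ C v`, `‖α_K - α_t‖₁ < η² / (8 C)`  ⟹  `v₀ > η / (4 C)`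
-/

set_option autoImplicit false
open MeasureTheory Set Filter Topology

namespace Claimed.Agent.R286

/-- layer cake with the distribution function `t ↦ μ {f ≤ t}`. -/
theorem gl_det_layer {μ : Measure ℝ} [IsProbabilityMeasure μ] {f : ℝ → ℝ} {M : ℝ}
    (hf : Measurable f) (h0 : ∀ᵐ v ∂μ, 0 ≤ f v) (hM : ∀ᵐ v ∂μ, f v ≤ M) :
    ∫ v, f v ∂μ = ∫ t in Ioc 0 M, (1 - μ.real {v | f v ≤ t}) := by
  have hint : Integrable f μ := by
    refine Integrable.of_bound hf.aestronglyMeasurable M ?_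
    filter_upwards [h0, hM] with v a b
    rw [Real.norm_eq_abs, abs_of_nonneg a]
    exact b
  rw [hint.integral_eq_integral_meas_lt h0,
    setIntegral_eq_of_subset_of_forall_sdiff_eq_zero measurableSet_Ioi Ioc_subset_Ioi_self ?_]
  · refine setIntegral_congr_fun measurableSet_Ioc fun t _ => ?_
    have : {v | t < f v} = {v | f v ≤ t}ᶜ := by
      ext v
      simp
    simp only [this]
    rw [measureReal_compl (measurableSet_le hf measurable_const)]
    simp
  · intro t ht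
    have htM : M < t := by
      have h1 : (0 : ℝ) < t := ht.1
      have h2 : ¬ (0 < t ∧ t ≤ M) := ht.2
      by_contra hcon
      exact h2 ⟨h1, not_lt.1 hcon⟩
    have : μ {v | t < f v} = 0 := by
      rw [measure_eq_zero_iff_ae_notMem]
      filter_upwards [hM] with v hv
      intro (hcon : t < f v)
      linarith
    simp [measureReal_def, this]

theorem gl_det_cdf_mono (μ : Measure ℝ) [IsFiniteMeasure μ] (f : ℝ → ℝ) :
    Monotone fun t => μ.real {v | f v ≤ t} := fun _ _ hst =>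
  measureReal_mono (fun _ hv => le_trans hv hst) (measure_ne_top _ _)

theorem gl_det_cdf_int (μ : Measure ℝ) [IsFiniteMeasure μ] (f : ℝ → ℝ) (M : ℝ) :
    IntegrableOn (fun t => 1 - μ.real {v | f v ≤ t}) (Ioc 0 M) := by
  have h1 : IntegrableOn (fun t => μ.real {v | f v ≤ t}) (Icc 0 M) :=
    MonotoneOn.integrableOn_isCompact isCompact_Icc ((gl_det_cdf_mono μ f).monotoneOn _)
  have h2 : IntegrableOn (fun _ : ℝ => (1 : ℝ)) (Icc 0 M) := by
    simp
  exact (h2.sub h1).mono_set Ioc_subset_Icc_self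

/-- `L¹` distance of two monotone functions = `L¹` distance of their distribution functions. -/
theorem gl_det_qt_prob {μ : Measure ℝ} [IsProbabilityMeasure μ] {K K' : ℝ → ℝ} {Q : ℝ}
    (hK : Monotone K) (hK' : Monotone K') (h0 : ∀ᵐ v ∂μ, 0 ≤ K v) (h0' : ∀ᵐ v ∂μ, 0 ≤ K' v)
    (hQ : ∀ᵐ v ∂μ, K v ≤ Q) (hQ' : ∀ᵐ v ∂μ, K' v ≤ Q) :
    ∫ v, |K v - K' v| ∂μ
      = ∫ t in Ioc 0 Q, |μ.real {v | K v ≤ t} - μ.real {v | K' v ≤ t}| := by
  have hmax : Measurable fun v => max (K v) (K' v) := hK.measurable.max hK'.measurable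
  have hmin : Measurable fun v => min (K v) (K' v) := hK.measurable.min hK'.measurable
  have e1 := gl_det_layer (μ := μ) (M := Q) hmax
    (by filter_upwards [h0] with v a using le_max_of_le_left a)
    (by filter_upwards [hQ, hQ'] with v a b using max_le a b)
  have e2 := gl_det_layer (μ := μ) (M := Q) hmin
    (by filter_upwards [h0, h0'] with v a b using le_min a b)
    (by filter_upwards [hQ] with v a using min_le_of_left_le a)
  have i1 : Integrable (fun v => max (K v) (K' v)) μ := by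
    refine Integrable.of_bound hmax.aestronglyMeasurable Q ?_
    filter_upwards [h0, hQ, hQ'] with v a b c
    rw [Real.norm_eq_abs, abs_of_nonneg (le_max_of_le_left a)]
    exact max_le b c
  have i2 : Integrable (fun v => min (K v) (K' v)) μ := by
    refine Integrable.of_bound hmin.aestronglyMeasurable Q ?_
    filter_upwards [h0, h0', hQ] with v a b c
    rw [Real.norm_eq_abs, abs_of_nonneg (le_min a b)]
    exact min_le_of_left_le c
  have e3 : ∫ v, |K v - K' v| ∂μ = ∫ v, max (K v) (K' v) ∂μ - ∫ v, min (K v) (K' v) ∂μ := by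
    rw [← integral_sub i1 i2]
    refine integral_congr_ae (Eventually.of_forall fun v => ?_)
    exact (max_sub_min_eq_abs' (K v) (K' v)).symm
  rw [e3, e1, e2, ← integral_sub (gl_det_cdf_int μ _ Q) (gl_det_cdf_int μ _ Q)]
  refine setIntegral_congr_fun measurableSet_Ioc fun t _ => ?_
  have hA : IsLowerSet {v | K v ≤ t} := fun a b hba ha => (hK hba).trans ha
  have hB : IsLowerSet {v | K' v ≤ t} := fun a b hba ha => (hK' hba).trans ha
  have smax : {v | max (K v) (K' v) ≤ t} = {v | K v ≤ t} ∩ {v | K' v ≤ t} := by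
    ext v
    simp
  have smin : {v | min (K v) (K' v) ≤ t} = {v | K v ≤ t} ∪ {v | K' v ≤ t} := by
    ext v
    simp
  simp only [smax, smin]
  rcases hA.total hB with h | h
  · rw [inter_eq_left.2 h, union_eq_right.2 h,
      abs_of_nonpos (sub_nonpos.2 (measureReal_mono h (measure_ne_top _ _)))]
    ring
  · rw [inter_eq_right.2 h, union_eq_left.2 h,
      abs_of_nonneg (sub_nonneg.2 (measureReal_mono h (measure_ne_top _ _)))]
    ring

/-- **(QT)** For clocks `K, K'` monotone on `(0,1)` with values in `[0,Q]`: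
`∫_0^Q |α_K - α_K'| dt = ∫_0^1 |K - K'| dv`, `α_K t = |{v ∈ (0,1) : K v ≤ t}|`. -/
theorem gl_det_qt {K K' : ℝ → ℝ} {Q : ℝ} (hQ0 : 0 ≤ Q) (hK : MonotoneOn K (Ioo 0 1))
    (hK' : MonotoneOn K' (Ioo 0 1)) (hb : ∀ v ∈ Ioo (0 : ℝ) 1, K v ∈ Icc 0 Q)
    (hb' : ∀ v ∈ Ioo (0 : ℝ) 1, K' v ∈ Icc 0 Q) :
    ∫ t in (0 : ℝ)..Q, |(volume {v : ℝ | v ∈ Ioo (0 : ℝ) 1 ∧ K v ≤ t}).toReal
        - (volume {v : ℝ | v ∈ Ioo (0 : ℝ) 1 ∧ K' v ≤ t}).toReal|
      = ∫ v in (0 : ℝ)..1, |K v - K' v| := by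
  obtain ⟨G, hGm, hGe⟩ := hK.exists_monotone_extension
    ⟨0, by rintro _ ⟨x, hx, rfl⟩; exact (hb x hx).1⟩ ⟨Q, by rintro _ ⟨x, hx, rfl⟩; exact (hb x hx).2⟩
  obtain ⟨G', hGm', hGe'⟩ := hK'.exists_monotone_extension
    ⟨0, by rintro _ ⟨x, hx, rfl⟩; exact (hb' x hx).1⟩
    ⟨Q, by rintro _ ⟨x, hx, rfl⟩; exact (hb' x hx).2⟩
  set μ : Measure ℝ := volume.restrict (Ioo 0 1) with hμ
  have : IsProbabilityMeasure μ := ⟨by simp [hμ]⟩
  have hae : ∀ᵐ v ∂μ, v ∈ Ioo (0 : ℝ) 1 := ae_restrict_mem measurableSet_Ioo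
  have key := gl_det_qt_prob (μ := μ) (Q := Q) hGm hGm'
    (by filter_upwards [hae] with v hv; rw [← hGe hv]; exact (hb v hv).1)
    (by filter_upwards [hae] with v hv; rw [← hGe' hv]; exact (hb' v hv).1)
    (by filter_upwards [hae] with v hv; rw [← hGe hv]; exact (hb v hv).2)
    (by filter_upwards [hae] with v hv; rw [← hGe' hv]; exact (hb' v hv).2)
  have hset : ∀ (F H : ℝ → ℝ), Monotone H → EqOn F H (Ioo 0 1) → ∀ t,
      (volume {v : ℝ | v ∈ Ioo (0 : ℝ) 1 ∧ F v ≤ t}).toReal = μ.real {v | H v ≤ t} := by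
    intro F H hH hFH t
    rw [measureReal_def, hμ, Measure.restrict_apply (measurableSet_le hH.measurable measurable_const)]
    congr 2
    ext v
    constructor
    · rintro ⟨hv, h⟩
      exact ⟨by simpa [← hFH hv] using h, hv⟩
    · rintro ⟨h, hv⟩
      exact ⟨hv, by simpa [hFH hv] using h⟩
  rw [intervalIntegral.integral_of_le hQ0, intervalIntegral.integral_of_le zero_le_one,
    integral_Ioc_eq_integral_Ioo (x := (0 : ℝ)) (y := 1)]
  simp only [hset K G hGm hGe, hset K' G' hGm' hGe']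
  rw [← key]
  refine (setIntegral_congr_fun measurableSet_Ioo fun v hv => ?_).symm
  simp only [hGe hv, hGe' hv]

/-- shift of a monotone `[0,1]`-valued function: `∫_0^{Q-a} (α (s+a) - α s) ds ≤ a`. -/
theorem gl_det_shift {α : ℝ → ℝ} (hα : Monotone α) (hb : ∀ t, α t ∈ Icc (0 : ℝ) 1) {a Q : ℝ}
    (ha : 0 ≤ a) :
    ∫ s in (0 : ℝ)..(Q - a), (α (s + a) - α s) ≤ a := by
  have hi : ∀ x y, IntervalIntegrable α volume x y := fun x y => hα.intervalIntegrable
  have hi' : ∀ x y, IntervalIntegrable (fun s => α (s + a)) volume x y := fun x y =>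
    Monotone.intervalIntegrable (fun s t hst => hα (by linarith))
  rw [intervalIntegral.integral_sub (hi' _ _) (hi _ _), intervalIntegral.integral_comp_add_right]
  simp only [zero_add, sub_add_cancel]
  have e1 : ∫ s in a..Q, α s = (∫ s in (0 : ℝ)..Q, α s) - ∫ s in (0 : ℝ)..a, α s := by
    rw [eq_sub_iff_add_eq, add_comm]
    exact intervalIntegral.integral_add_adjacent_intervals (hi _ _) (hi _ _)
  have e2 : ∫ s in (0 : ℝ)..(Q - a), α s = (∫ s in (0 : ℝ)..Q, α s) - ∫ s in (Q - a)..Q, α s := by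
    rw [eq_sub_iff_add_eq]
    exact intervalIntegral.integral_add_adjacent_intervals (hi _ _) (hi _ _)
  have e3 : 0 ≤ ∫ s in (0 : ℝ)..a, α s :=
    intervalIntegral.integral_nonneg ha fun s _ => (hb s).1
  have e4 : ∫ s in (Q - a)..Q, α s ≤ a := by
    have := intervalIntegral.integral_mono_on (a := Q - a) (b := Q) (by linarith) (hi _ _)
      (intervalIntegrable_const (c := (1 : ℝ))) (fun s _ => (hb s).2)
    simpa using this
  rw [e1, e2]
  linarith

/-- **(GP)** from the primitive to the profile. -/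
theorem gl_det_gp {α₁ α₂ : ℝ → ℝ} (h₁ : Monotone α₁) (h₂ : Monotone α₂)
    (hb₁ : ∀ t, α₁ t ∈ Icc (0 : ℝ) 1) (hb₂ : ∀ t, α₂ t ∈ Icc (0 : ℝ) 1) {a Q : ℝ} (ha : 0 < a)
    (haQ : a ≤ Q) :
    ∫ s in (0 : ℝ)..Q, |α₁ s - α₂ s|
      ≤ 3 * a + 2 / a * ∫ s in (0 : ℝ)..Q, |∫ u in s..Q, (α₁ u - α₂ u)| := by
  set g : ℝ → ℝ := fun s => α₁ s - α₂ s with hg
  set P : ℝ → ℝ := fun s => ∫ u in s..Q, g u with hP
  set ω : ℝ → ℝ := fun s => (α₁ (s + a) - α₁ s) + (α₂ (s + a) - α₂ s) with hω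
  have hig : ∀ x y, IntervalIntegrable g volume x y := fun x y =>
    h₁.intervalIntegrable.sub h₂.intervalIntegrable
  have hiag : ∀ x y, IntervalIntegrable (fun s => |g s|) volume x y := fun x y => (hig x y).abs
  have hPc : Continuous P := by
    have h1 : Continuous fun s => ∫ u in Q..s, g u := intervalIntegral.continuous_primitive hig Q
    have h2 : P = fun s => -∫ u in Q..s, g u := by
      funext s
      exact intervalIntegral.integral_symm _ _
    rw [h2]
    exact h1.neg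
  have hiP : ∀ x y, IntervalIntegrable (fun s => |P s|) volume x y := fun x y =>
    hPc.abs.intervalIntegrable x y
  have hiP' : ∀ x y, IntervalIntegrable (fun s => |P (s + a)|) volume x y := fun x y =>
    (hPc.comp (continuous_id.add continuous_const)).abs.intervalIntegrable x y
  have hsh : ∀ {α : ℝ → ℝ}, Monotone α → ∀ x y,
      IntervalIntegrable (fun s => α (s + a) - α s) volume x y := fun {α} hα x y =>
    (Monotone.intervalIntegrable (fun s t hst => hα (by linarith))).sub hα.intervalIntegrable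
  have hiω : ∀ x y, IntervalIntegrable ω volume x y := fun x y => (hsh h₁ x y).add (hsh h₂ x y)
  -- pointwise inequality
  have hpt : ∀ s, a * |g s| ≤ a * ω s + |P s| + |P (s + a)| := by
    intro s
    have e1 : ∫ u in s..(s + a), g u = P s - P (s + a) := by
      simp only [hP]
      rw [eq_sub_iff_add_eq]
      exact intervalIntegral.integral_add_adjacent_intervals (hig _ _) (hig _ _)
    have e2 : a * g s = (∫ u in s..(s + a), (g s - g u)) + (P s - P (s + a)) := by
      rw [intervalIntegral.integral_sub intervalIntegrable_const (hig _ _), e1,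
        intervalIntegral.integral_const]
      simp
    have e3 : |∫ u in s..(s + a), (g s - g u)| ≤ ω s * |s + a - s| := by
      have := intervalIntegral.norm_integral_le_of_norm_le_const (a := s) (b := s + a)
        (f := fun u => g s - g u) (C := ω s) (fun u hu => by
          rw [uIoc_of_le (by linarith)] at hu
          have a1 := h₁ hu.1.le
          have a2 := h₁ hu.2
          have b1 := h₂ hu.1.le
          have b2 := h₂ hu.2
          rw [Real.norm_eq_abs, abs_le]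
          simp only [hg, hω]
          constructor <;> linarith)
      simpa [Real.norm_eq_abs] using this
    have e4 : |s + a - s| = a := by
      rw [add_sub_cancel_left, abs_of_pos ha]
    rw [e4] at e3
    calc a * |g s| = |a * g s| := by rw [abs_mul, abs_of_pos ha]
      _ = |(∫ u in s..(s + a), (g s - g u)) + (P s - P (s + a))| := by rw [e2]
      _ ≤ |∫ u in s..(s + a), (g s - g u)| + |P s - P (s + a)| := abs_add_le _ _
      _ ≤ ω s * a + (|P s| + |P (s + a)|) := add_le_add e3 (abs_sub _ _)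
      _ = a * ω s + |P s| + |P (s + a)| := by ring
  have hQa : 0 ≤ Q - a := by linarith
  -- integrate on `[0, Q - a]`
  have I1 : ∫ s in (0 : ℝ)..(Q - a), a * |g s|
      ≤ ∫ s in (0 : ℝ)..(Q - a), (a * ω s + |P s| + |P (s + a)|) :=
    intervalIntegral.integral_mono_on hQa ((hiag _ _).const_mul a)
      ((((hiω _ _).const_mul a).add (hiP _ _)).add (hiP' _ _)) (fun s _ => hpt s)
  have I2 : ∫ s in (0 : ℝ)..(Q - a), (a * ω s + |P s| + |P (s + a)|)
      = a * (∫ s in (0 : ℝ)..(Q - a), ω s) + (∫ s in (0 : ℝ)..(Q - a), |P s|)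
        + ∫ s in (0 : ℝ)..(Q - a), |P (s + a)| := by
    rw [intervalIntegral.integral_add (((hiω _ _).const_mul a).add (hiP _ _)) (hiP' _ _),
      intervalIntegral.integral_add ((hiω _ _).const_mul a) (hiP _ _),
      intervalIntegral.integral_const_mul]
  have I3 : ∫ s in (0 : ℝ)..(Q - a), ω s ≤ 2 * a := by
    simp only [hω]
    rw [intervalIntegral.integral_add (hsh h₁ _ _) (hsh h₂ _ _)]
    have := gl_det_shift h₁ hb₁ (Q := Q) ha.le
    have := gl_det_shift h₂ hb₂ (Q := Q) ha.le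
    linarith
  have hnn : ∀ x y, x ≤ y → 0 ≤ ∫ s in x..y, |P s| := fun x y hxy =>
    intervalIntegral.integral_nonneg hxy fun s _ => abs_nonneg _
  have I4 : ∫ s in (0 : ℝ)..(Q - a), |P s| ≤ ∫ s in (0 : ℝ)..Q, |P s| := by
    have := intervalIntegral.integral_add_adjacent_intervals (hiP 0 (Q - a)) (hiP (Q - a) Q)
    have := hnn (Q - a) Q (by linarith)
    linarith
  have I5 : ∫ s in (0 : ℝ)..(Q - a), |P (s + a)| ≤ ∫ s in (0 : ℝ)..Q, |P s| := by
    rw [intervalIntegral.integral_comp_add_right (fun s => |P s|)]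
    simp only [zero_add, sub_add_cancel]
    have := intervalIntegral.integral_add_adjacent_intervals (hiP 0 a) (hiP a Q)
    have := hnn 0 a ha.le
    linarith
  have I6 : ∫ s in (Q - a)..Q, |g s| ≤ a := by
    have := intervalIntegral.integral_mono_on (a := Q - a) (b := Q) (by linarith) (hiag _ _)
      (intervalIntegrable_const (c := (1 : ℝ))) (fun s _ => by
        have a1 := hb₁ s
        have a2 := hb₂ s
        simp only [hg]
        rw [abs_le]
        constructor <;> linarith [a1.1, a1.2, a2.1, a2.2])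
    simpa using this
  have I7 : ∫ s in (0 : ℝ)..Q, |g s|
      = (∫ s in (0 : ℝ)..(Q - a), |g s|) + ∫ s in (Q - a)..Q, |g s| :=
    (intervalIntegral.integral_add_adjacent_intervals (hiag _ _) (hiag _ _)).symm
  rw [intervalIntegral.integral_const_mul] at I1
  have I8 : a * ∫ s in (0 : ℝ)..(Q - a), |g s| ≤ a * (2 * a) + 2 * ∫ s in (0 : ℝ)..Q, |P s| := by
    have := mul_le_mul_of_nonneg_left I3 ha.le
    linarith
  have I9 : ∫ s in (0 : ℝ)..(Q - a), |g s| ≤ 2 * a + 2 / a * ∫ s in (0 : ℝ)..Q, |P s| := by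
    have h : a * (2 * a) + 2 * ∫ s in (0 : ℝ)..Q, |P s|
        = a * (2 * a + 2 / a * ∫ s in (0 : ℝ)..Q, |P s|) := by
      field_simp
    rw [h] at I8
    exact le_of_mul_le_mul_left I8 ha
  rw [I7]
  linarith

/-! ### The potential at a minimiser of the constant density box -/

/-- **Deterministic data at a minimiser of the constant density box** (LL 06, first variation).
`a = α'` (density of the inverse path on the radius interval `[0,2]`), `St s = S_{α(s)}`, `e s = e(α(s))`,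
`H` the potential: `H' = e (s - St)`, `a = M` a.e. on `{H < 0}`, `a = κ` a.e. on `{H > 0}`. -/
structure GlPot (κ M em ep : ℝ) (a St e H : ℝ → ℝ) : Prop where
  hM : 2 ≤ M
  hem : 0 < em
  a_int : IntervalIntegrable a volume 0 2
  a_nonneg : ∀ᵐ s, s ∈ Icc (0 : ℝ) 2 → 0 ≤ a s
  a_mass : ∫ s in (0 : ℝ)..2, a s ≤ 1
  St_mono : MonotoneOn St (Icc 0 2)
  St_mem : ∀ s ∈ Icc (0 : ℝ) 2, St s ∈ Icc (0 : ℝ) 1
  e_mem : ∀ s ∈ Icc (0 : ℝ) 2, e s ∈ Icc em ep
  phi_int : IntervalIntegrable (fun u => e u * (u - St u)) volume 0 2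
  H_eq : ∀ s ∈ Icc (0 : ℝ) 2, ∀ t ∈ Icc (0 : ℝ) 2, H t - H s = ∫ u in s..t, e u * (u - St u)
  bang_neg : ∀ᵐ s, s ∈ Icc (0 : ℝ) 2 → H s < 0 → a s = M
  bang_pos : ∀ᵐ s, s ∈ Icc (0 : ℝ) 2 → 0 < H s → a s = κ

variable {κ M em ep : ℝ} {a St e H : ℝ → ℝ}

theorem GlPot.phi_int' (h : GlPot κ M em ep a St e H) {s t : ℝ} (hs : s ∈ Icc (0 : ℝ) 2)
    (ht : t ∈ Icc (0 : ℝ) 2) : IntervalIntegrable (fun u => e u * (u - St u)) volume s t :=
  h.phi_int.mono_set (by
    rw [uIcc_of_le (by norm_num : (0 : ℝ) ≤ 2)]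
    exact uIcc_subset_Icc hs ht)

/-- upper bound of an increment of `H` from a pointwise upper bound of `H'`. -/
theorem GlPot.H_le (h : GlPot κ M em ep a St e H) {s t c : ℝ} (hs : s ∈ Icc (0 : ℝ) 2)
    (ht : t ∈ Icc (0 : ℝ) 2) (hst : s ≤ t) (hc : ∀ u ∈ Icc s t, e u * (u - St u) ≤ c) :
    H t - H s ≤ c * (t - s) := by
  rw [h.H_eq s hs t ht]
  have := intervalIntegral.integral_mono_on hst (h.phi_int' hs ht)
    (intervalIntegrable_const (c := c)) hc
  simpa [mul_comm] using this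

/-- lower bound of an increment of `H` from a pointwise lower bound of `H'`. -/
theorem GlPot.le_H (h : GlPot κ M em ep a St e H) {s t c : ℝ} (hs : s ∈ Icc (0 : ℝ) 2)
    (ht : t ∈ Icc (0 : ℝ) 2) (hst : s ≤ t) (hc : ∀ u ∈ Icc s t, c ≤ e u * (u - St u)) :
    c * (t - s) ≤ H t - H s := by
  rw [h.H_eq s hs t ht]
  have := intervalIntegral.integral_mono_on hst (intervalIntegrable_const (c := c))
    (h.phi_int' hs ht) hc
  simpa [mul_comm] using this

/-- **(POT i)** an interval on which `H < 0` has length at most `1 / M`. -/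
theorem GlPot.neg_len (h : GlPot κ M em ep a St e H) {s₁ s₂ : ℝ} (h0 : 0 ≤ s₁) (h12 : s₁ ≤ s₂)
    (h2 : s₂ ≤ 2) (hneg : ∀ u ∈ Ioo s₁ s₂, H u < 0) : M * (s₂ - s₁) ≤ 1 := by
  have e1 : ∫ u in s₁..s₂, a u = ∫ _u in s₁..s₂, M := by
    refine intervalIntegral.integral_congr_ae ?_
    have hne : ∀ᵐ u : ℝ, u ≠ s₂ := by
      simp [ae_iff]
    filter_upwards [h.bang_neg, hne] with u hu hu2 hmem
    rw [uIoc_of_le h12] at hmem
    have hlt : u < s₂ := lt_of_le_of_ne hmem.2 hu2
    exact hu ⟨h0.trans hmem.1.le, hmem.2.trans h2⟩ (hneg u ⟨hmem.1, hlt⟩)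
  have e2 : ∫ u in s₁..s₂, a u ≤ ∫ u in (0 : ℝ)..2, a u := by
    refine intervalIntegral.integral_mono_interval h0 h12 h2 ?_ h.a_int
    rw [EventuallyLE, ae_restrict_iff' measurableSet_Ioc]
    filter_upwards [h.a_nonneg] with u hu hmem
    exact hu ⟨hmem.1.le, hmem.2⟩
  rw [e1, intervalIntegral.integral_const, smul_eq_mul] at e2
  linarith [h.a_mass]

theorem GlPot.M_pos (h : GlPot κ M em ep a St e H) : 0 < M := by linarith [h.hM]

theorem GlPot.em_le_ep (h : GlPot κ M em ep a St e H) : em ≤ ep := by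
  have := h.e_mem 0 ⟨le_rfl, by norm_num⟩
  exact this.1.trans this.2

theorem GlPot.ep_pos (h : GlPot κ M em ep a St e H) : 0 < ep := h.hem.trans_le h.em_le_ep

/-- **(POT ii, upper half)** at a nonfloor point `St s₀ ≤ s₀ + 1 / M`. -/
theorem GlPot.nonfloor_le (h : GlPot κ M em ep a St e H) {s₀ : ℝ} (hs₀ : s₀ ∈ Icc (0 : ℝ) 2)
    (hH : H s₀ ≤ 0) : St s₀ ≤ s₀ + 1 / M := by
  by_contra hcon
  push Not at hcon
  have hMp := h.M_pos
  have hiM : 0 < 1 / M := by positivity
  have hS := h.St_mem s₀ hs₀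
  have h02 : s₀ < St s₀ := by linarith
  have h22 : St s₀ ≤ 2 := by linarith [hS.2]
  have hneg : ∀ t ∈ Ioo s₀ (St s₀), H t < 0 := by
    intro t ht
    have htI : t ∈ Icc (0 : ℝ) 2 := ⟨hs₀.1.trans ht.1.le, ht.2.le.trans h22⟩
    have key := h.H_le (c := em * (t - St s₀)) hs₀ htI ht.1.le (fun u hu => by
      have huI : u ∈ Icc (0 : ℝ) 2 := ⟨hs₀.1.trans hu.1, hu.2.trans htI.2⟩
      have m1 := h.St_mono hs₀ huI hu.1
      have e1 := (h.e_mem u huI).1
      have x1 : u - St u ≤ t - St s₀ := by linarith [hu.2]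
      have x0 : u - St u ≤ 0 := by linarith [ht.2]
      calc e u * (u - St u) ≤ em * (u - St u) := mul_le_mul_of_nonpos_right e1 x0
        _ ≤ em * (t - St s₀) := mul_le_mul_of_nonneg_left x1 h.hem.le)
    have : em * (t - St s₀) * (t - s₀) < 0 :=
      mul_neg_of_neg_of_pos (mul_neg_of_pos_of_neg h.hem (by linarith [ht.2])) (by linarith [ht.1])
    linarith
  have := h.neg_len hs₀.1 h02.le h22 hneg
  have h3 : M * (1 / M) < M * (St s₀ - s₀) := mul_lt_mul_of_pos_left (by linarith) hMp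
  rw [mul_one_div_cancel hMp.ne'] at h3
  linarith

/-- **(POT ii, lower half)** at a nonfloor point `s₀ - 1 / M ≤ St s₀`. -/
theorem GlPot.le_nonfloor (h : GlPot κ M em ep a St e H) {s₀ : ℝ} (hs₀ : s₀ ∈ Icc (0 : ℝ) 2)
    (hH : H s₀ ≤ 0) : s₀ - 1 / M ≤ St s₀ := by
  by_contra hcon
  push Not at hcon
  have hMp := h.M_pos
  have hiM : 0 < 1 / M := by positivity
  have hS := h.St_mem s₀ hs₀
  have h02 : St s₀ < s₀ := by linarith
  have hneg : ∀ t ∈ Ioo (St s₀) s₀, H t < 0 := by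
    intro t ht
    have htI : t ∈ Icc (0 : ℝ) 2 := ⟨hS.1.trans ht.1.le, ht.2.le.trans hs₀.2⟩
    have key := h.le_H (c := em * (t - St s₀)) htI hs₀ ht.2.le (fun u hu => by
      have huI : u ∈ Icc (0 : ℝ) 2 := ⟨htI.1.trans hu.1, hu.2.trans hs₀.2⟩
      have m1 := h.St_mono huI hs₀ hu.2
      have e1 := (h.e_mem u huI).1
      have x1 : t - St s₀ ≤ u - St u := by linarith [hu.1]
      have x0 : 0 ≤ u - St u := by linarith [ht.1]
      calc em * (t - St s₀) ≤ em * (u - St u) := mul_le_mul_of_nonneg_left x1 h.hem.le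
        _ ≤ e u * (u - St u) := mul_le_mul_of_nonneg_right e1 x0)
    have : 0 < em * (t - St s₀) * (s₀ - t) :=
      mul_pos (mul_pos h.hem (by linarith [ht.1])) (by linarith [ht.2])
    linarith
  have := h.neg_len hS.1 h02.le hs₀.2 hneg
  have h3 : M * (1 / M) < M * (s₀ - St s₀) := mul_lt_mul_of_pos_left (by linarith) hMp
  rw [mul_one_div_cancel hMp.ne'] at h3
  linarith

/-- **(POT ii)** `|St s₀ - s₀| ≤ 1 / M` at a nonfloor point. -/
theorem GlPot.nonfloor_abs (h : GlPot κ M em ep a St e H) {s₀ : ℝ} (hs₀ : s₀ ∈ Icc (0 : ℝ) 2)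
    (hH : H s₀ ≤ 0) : |St s₀ - s₀| ≤ 1 / M := by
  rw [abs_le]
  constructor <;> linarith [h.nonfloor_le hs₀ hH, h.le_nonfloor hs₀ hH]

/-- **(POT iv)** `H ≥ - 6 e₊ / M²`. -/
theorem GlPot.H_lower (h : GlPot κ M em ep a St e H) {s : ℝ} (hs : s ∈ Icc (0 : ℝ) 2) :
    -(6 * ep / M ^ 2) ≤ H s := by
  have hMp := h.M_pos
  have hep := h.ep_pos
  have hpos : 0 < 6 * ep / M ^ 2 := by positivity
  rcases le_or_gt 0 (H s) with hH | hH
  · linarith
  have h2M : 2 / M ≤ 1 := by
    rw [div_le_one hMp]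
    exact h.hM
  have h2Mp : 0 < 2 / M := by positivity
  have hval : ep * (3 / M) * (2 / M) = 6 * ep / M ^ 2 := by
    field_simp
    ring
  rcases le_or_gt (s + 2 / M) 2 with hc | hc
  · -- look to the right
    have hex : ∃ u ∈ Ioo s (s + 2 / M), 0 ≤ H u := by
      by_contra hno
      push Not at hno
      have := h.neg_len hs.1 (by linarith : s ≤ s + 2 / M) hc hno
      have h3 : M * (s + 2 / M - s) = 2 := by
        field_simp
        ring
      linarith
    obtain ⟨u, hu, hHu⟩ := hex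
    have huI : u ∈ Icc (0 : ℝ) 2 := ⟨hs.1.trans hu.1.le, hu.2.le.trans hc⟩
    have key := h.H_le (c := ep * (3 / M)) hs huI hu.1.le (fun v hv => by
      have hvI : v ∈ Icc (0 : ℝ) 2 := ⟨hs.1.trans hv.1, hv.2.trans huI.2⟩
      have m1 := h.St_mono hs hvI hv.1
      have l1 := h.le_nonfloor hs hH.le
      have e1 := h.e_mem v hvI
      have x1 : v - St v ≤ 3 / M := by
        have : 3 / M = 2 / M + 1 / M := by ring
        linarith [hv.2, hu.2]
      calc e v * (v - St v) ≤ e v * (3 / M) :=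
            mul_le_mul_of_nonneg_left x1 (h.hem.le.trans e1.1)
        _ ≤ ep * (3 / M) := mul_le_mul_of_nonneg_right e1.2 (by positivity))
    have k2 : ep * (3 / M) * (u - s) ≤ ep * (3 / M) * (2 / M) :=
      mul_le_mul_of_nonneg_left (by linarith [hu.2]) (by positivity)
    linarith
  · -- look to the left
    have hs2 : 0 ≤ s - 2 / M := by linarith
    have hex : ∃ u ∈ Ioo (s - 2 / M) s, 0 ≤ H u := by
      by_contra hno
      push Not at hno
      have := h.neg_len hs2 (by linarith : s - 2 / M ≤ s) hs.2 hno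
      have h3 : M * (s - (s - 2 / M)) = 2 := by
        field_simp
        ring
      linarith
    obtain ⟨u, hu, hHu⟩ := hex
    have huI : u ∈ Icc (0 : ℝ) 2 := ⟨hs2.trans hu.1.le, hu.2.le.trans hs.2⟩
    have key := h.le_H (c := -(ep * (3 / M))) huI hs hu.2.le (fun v hv => by
      have hvI : v ∈ Icc (0 : ℝ) 2 := ⟨huI.1.trans hv.1, hv.2.trans hs.2⟩
      have m1 := h.St_mono hvI hs hv.2
      have l1 := h.nonfloor_le hs hH.le
      have e1 := h.e_mem v hvI
      have x1 : -(3 / M) ≤ v - St v := by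
        have : 3 / M = 2 / M + 1 / M := by ring
        linarith [hv.1, hu.1]
      calc -(ep * (3 / M)) = ep * (-(3 / M)) := by ring
        _ ≤ e v * (-(3 / M)) := mul_le_mul_of_nonpos_right e1.2 (by
            have : 0 < 3 / M := by positivity
            linarith)
        _ ≤ e v * (v - St v) := mul_le_mul_of_nonneg_left x1 (h.hem.le.trans e1.1))
    have k2 : ep * (3 / M) * (s - u) ≤ ep * (3 / M) * (2 / M) :=
      mul_le_mul_of_nonneg_left (by linarith [hu.1]) (by positivity)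
    linarith

/-- **(LOC, upper half)**: near a nonfloor point `s₀`, `St ≤ s₀ + C' h`. -/
theorem GlPot.loc_le (h : GlPot κ M em ep a St e H) {s₀ hh C' s₁ : ℝ} (hs₀ : s₀ ∈ Icc (0 : ℝ) 2)
    (hH : H s₀ ≤ 0) (hhM : 1 / M ≤ hh) (hC : 2 + 8 * ep / em < C') (hroom : s₀ + C' * hh ≤ 2)
    (hs₁ : s₁ ∈ Icc (0 : ℝ) 2) (h1 : s₁ ≤ s₀ + hh) : St s₁ ≤ s₀ + C' * hh := by
  by_contra hcon
  push Not at hcon
  have hMp := h.M_pos
  have hep := h.ep_pos
  have hem := h.hem
  have hiM : 0 < 1 / M := by positivity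
  have hhp : 0 < hh := hiM.trans_le hhM
  have hC2 : 2 < C' := by
    have : 0 < 8 * ep / em := by positivity
    linarith
  set p := s₀ + hh with hp
  set q := s₀ + (C' - 1) * hh with hq
  have hpq : p ≤ q := by
    have : hh ≤ (C' - 1) * hh := by nlinarith
    linarith
  have hq2 : q ≤ 2 := by
    have : q = s₀ + C' * hh - hh := by rw [hq]; ring
    linarith
  have hpI : p ∈ Icc (0 : ℝ) 2 := ⟨by linarith [hs₀.1], hpq.trans hq2⟩
  have hqI : q ∈ Icc (0 : ℝ) 2 := ⟨hpI.1.trans hpq, hq2⟩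
  have st1 := h.H_le (c := ep * (2 * hh)) hs₀ hpI (by linarith) (fun u hu => by
    have huI : u ∈ Icc (0 : ℝ) 2 := ⟨hs₀.1.trans hu.1, hu.2.trans hpI.2⟩
    have m1 := h.St_mono hs₀ huI hu.1
    have l1 := h.le_nonfloor hs₀ hH
    have e1 := h.e_mem u huI
    have x1 : u - St u ≤ 2 * hh := by linarith [hu.2]
    calc e u * (u - St u) ≤ e u * (2 * hh) := mul_le_mul_of_nonneg_left x1 (hem.le.trans e1.1)
      _ ≤ ep * (2 * hh) := mul_le_mul_of_nonneg_right e1.2 (by positivity))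
  have st2 := h.H_le (c := em * (-hh)) hpI hqI hpq (fun u hu => by
    have huI : u ∈ Icc (0 : ℝ) 2 := ⟨hpI.1.trans hu.1, hu.2.trans hqI.2⟩
    have m1 := h.St_mono hs₁ huI (h1.trans hu.1)
    have e1 := h.e_mem u huI
    have x1 : u - St u ≤ -hh := by
      have : u ≤ s₀ + C' * hh - hh := by
        have : q = s₀ + C' * hh - hh := by rw [hq]; ring
        linarith [hu.2]
      linarith
    calc e u * (u - St u) ≤ em * (u - St u) := mul_le_mul_of_nonpos_right e1.1 (by linarith)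
      _ ≤ em * (-hh) := mul_le_mul_of_nonneg_left x1 hem.le)
  have st3 := h.H_lower hqI
  have hM2 : 6 * ep / M ^ 2 ≤ 6 * ep * hh ^ 2 := by
    have : 6 * ep / M ^ 2 = 6 * ep * (1 / M) ^ 2 := by
      field_simp
    rw [this]
    exact mul_le_mul_of_nonneg_left (pow_le_pow_left₀ hiM.le hhM 2) (by positivity)
  have e1 : p - s₀ = hh := by rw [hp]; ring
  have e2 : q - p = (C' - 2) * hh := by rw [hp, hq]; ring
  rw [e1] at st1
  rw [e2] at st2
  have fin : em * (C' - 2) * hh ^ 2 ≤ 8 * ep * hh ^ 2 := by nlinarith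
  have fin2 : em * (C' - 2) ≤ 8 * ep := le_of_mul_le_mul_right fin (by positivity)
  have : C' - 2 ≤ 8 * ep / em := by
    rw [le_div_iff₀ hem]
    linarith
  linarith

/-- **(LOC, lower half)**: near a nonfloor point `s₀`, `s₀ - C' h ≤ St`. -/
theorem GlPot.le_loc (h : GlPot κ M em ep a St e H) {s₀ hh C' s₁ : ℝ} (hs₀ : s₀ ∈ Icc (0 : ℝ) 2)
    (hH : H s₀ ≤ 0) (hhM : 1 / M ≤ hh) (hC : 2 + 8 * ep / em < C') (hroom : 0 ≤ s₀ - C' * hh)
    (hs₁ : s₁ ∈ Icc (0 : ℝ) 2) (h1 : s₀ - hh ≤ s₁) : s₀ - C' * hh ≤ St s₁ := by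
  by_contra hcon
  push Not at hcon
  have hMp := h.M_pos
  have hep := h.ep_pos
  have hem := h.hem
  have hiM : 0 < 1 / M := by positivity
  have hhp : 0 < hh := hiM.trans_le hhM
  have hC2 : 2 < C' := by
    have : 0 < 8 * ep / em := by positivity
    linarith
  set p := s₀ - hh with hp
  set q := s₀ - (C' - 1) * hh with hq
  have hqp : q ≤ p := by
    have : hh ≤ (C' - 1) * hh := by nlinarith
    linarith
  have hq0 : 0 ≤ q := by
    have : q = s₀ - C' * hh + hh := by rw [hq]; ring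
    linarith
  have hpI : p ∈ Icc (0 : ℝ) 2 := ⟨hq0.trans hqp, by linarith [hs₀.2]⟩
  have hqI : q ∈ Icc (0 : ℝ) 2 := ⟨hq0, hqp.trans hpI.2⟩
  have st1 := h.le_H (c := -(ep * (2 * hh))) hpI hs₀ (by linarith) (fun u hu => by
    have huI : u ∈ Icc (0 : ℝ) 2 := ⟨hpI.1.trans hu.1, hu.2.trans hs₀.2⟩
    have m1 := h.St_mono huI hs₀ hu.2
    have l1 := h.nonfloor_le hs₀ hH
    have e1 := h.e_mem u huI
    have x1 : -(2 * hh) ≤ u - St u := by linarith [hu.1]
    calc -(ep * (2 * hh)) = ep * (-(2 * hh)) := by ring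
      _ ≤ e u * (-(2 * hh)) := mul_le_mul_of_nonpos_right e1.2 (by linarith)
      _ ≤ e u * (u - St u) := mul_le_mul_of_nonneg_left x1 (hem.le.trans e1.1))
  have st2 := h.le_H (c := em * hh) hqI hpI hqp (fun u hu => by
    have huI : u ∈ Icc (0 : ℝ) 2 := ⟨hqI.1.trans hu.1, hu.2.trans hpI.2⟩
    have m1 := h.St_mono huI hs₁ (hu.2.trans h1)
    have e1 := h.e_mem u huI
    have x1 : hh ≤ u - St u := by
      have : s₀ - C' * hh + hh ≤ u := by
        have : q = s₀ - C' * hh + hh := by rw [hq]; ring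
        linarith [hu.1]
      linarith
    calc em * hh ≤ em * (u - St u) := mul_le_mul_of_nonneg_left x1 hem.le
      _ ≤ e u * (u - St u) := mul_le_mul_of_nonneg_right e1.1 (by linarith))
  have st3 := h.H_lower hqI
  have hM2 : 6 * ep / M ^ 2 ≤ 6 * ep * hh ^ 2 := by
    have : 6 * ep / M ^ 2 = 6 * ep * (1 / M) ^ 2 := by
      field_simp
    rw [this]
    exact mul_le_mul_of_nonneg_left (pow_le_pow_left₀ hiM.le hhM 2) (by positivity)
  have e1 : s₀ - p = hh := by rw [hp]; ring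
  have e2 : p - q = (C' - 2) * hh := by rw [hp, hq]; ring
  rw [e1] at st1
  rw [e2] at st2
  have fin : em * (C' - 2) * hh ^ 2 ≤ 8 * ep * hh ^ 2 := by nlinarith
  have fin2 : em * (C' - 2) ≤ 8 * ep := le_of_mul_le_mul_right fin (by positivity)
  have : C' - 2 ≤ 8 * ep / em := by
    rw [le_div_iff₀ hem]
    linarith
  linarith

/-- **(LOC)** `|St s - s₀| ≤ C' h` for `|s - s₀| ≤ h`, `s₀` nonfloor, `1 / M ≤ h`, room `C' h` on both sides. -/
theorem GlPot.loc (h : GlPot κ M em ep a St e H) {s₀ hh C' s₁ : ℝ} (hs₀ : s₀ ∈ Icc (0 : ℝ) 2)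
    (hH : H s₀ ≤ 0) (hhM : 1 / M ≤ hh) (hC : 2 + 8 * ep / em < C') (hroom : s₀ + C' * hh ≤ 2)
    (hroom' : 0 ≤ s₀ - C' * hh) (hs₁ : s₁ ∈ Icc (0 : ℝ) 2) (h1 : |s₁ - s₀| ≤ hh) :
    |St s₁ - s₀| ≤ C' * hh := by
  rw [abs_le] at h1 ⊢
  constructor
  · linarith [h.le_loc hs₀ hH hhM hC hroom' hs₁ (by linarith [h1.1])]
  · linarith [h.loc_le hs₀ hH hhM hC hroom hs₁ (by linarith [h1.2])]

/-- **(POT iii, integrated)** the cap/floor mismatch: `∫_0^1 (S_v - r v)² dv = ∫_0^2 (St s - s)² a s ds ≤ 1 / M² + 8 κ`. -/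
theorem GlPot.mismatch (h : GlPot κ M em ep a St e H) (hκ : 0 ≤ κ) :
    ∫ s in (0 : ℝ)..2, (St s - s) ^ 2 * a s ≤ 1 / M ^ 2 + 8 * κ := by
  have hMp := h.M_pos
  have h02 : (0 : ℝ) ≤ 2 := by norm_num
  have hint : IntervalIntegrable (fun s => 1 / M ^ 2 * a s + 4 * κ) volume 0 2 :=
    (h.a_int.const_mul _).add intervalIntegrable_const
  have key : ∫ s in (0 : ℝ)..2, (St s - s) ^ 2 * a s ≤ ∫ s in (0 : ℝ)..2, (1 / M ^ 2 * a s + 4 * κ) := by
    rw [intervalIntegral.integral_of_le h02, intervalIntegral.integral_of_le h02]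
    refine integral_mono_of_nonneg ?_ ((intervalIntegrable_iff_integrableOn_Ioc_of_le h02).1 hint) ?_
    · rw [EventuallyLE, ae_restrict_iff' measurableSet_Ioc]
      filter_upwards [h.a_nonneg] with s hs hmem
      exact mul_nonneg (sq_nonneg _) (hs ⟨hmem.1.le, hmem.2⟩)
    · rw [EventuallyLE, ae_restrict_iff' measurableSet_Ioc]
      filter_upwards [h.a_nonneg, h.bang_pos] with s hs hpos hmem
      have hsI : s ∈ Icc (0 : ℝ) 2 := ⟨hmem.1.le, hmem.2⟩
      have ha := hs hsI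
      have hS := h.St_mem s hsI
      rcases le_or_gt (H s) 0 with hH | hH
      · have h1 := h.nonfloor_abs hsI hH
        have h2 : (St s - s) ^ 2 ≤ (1 / M) ^ 2 := by
          rw [← sq_abs]
          exact pow_le_pow_left₀ (abs_nonneg _) h1 2
        have h3 : (1 / M) ^ 2 = 1 / M ^ 2 := by
          field_simp
        rw [h3] at h2
        have := mul_le_mul_of_nonneg_right h2 ha
        show (St s - s) ^ 2 * a s ≤ 1 / M ^ 2 * a s + 4 * κ
        linarith
      · have h1 : a s = κ := hpos hsI hH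
        have h2 : (St s - s) ^ 2 ≤ 4 := by
          have : |St s - s| ≤ 2 := by
            rw [abs_le]
            constructor <;> linarith [hS.1, hS.2, hsI.1, hsI.2]
          calc (St s - s) ^ 2 = |St s - s| ^ 2 := (sq_abs _).symm
            _ ≤ 2 ^ 2 := pow_le_pow_left₀ (abs_nonneg _) this 2
            _ = 4 := by norm_num
        have h3 : 0 ≤ 1 / M ^ 2 * a s := by positivity
        show (St s - s) ^ 2 * a s ≤ 1 / M ^ 2 * a s + 4 * κ
        rw [h1] at h3 ⊢
        have := mul_le_mul_of_nonneg_right h2 hκ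
        linarith
  refine key.trans ?_
  rw [intervalIntegral.integral_add (h.a_int.const_mul _) intervalIntegrable_const,
    intervalIntegral.integral_const_mul, intervalIntegral.integral_const]
  have : 1 / M ^ 2 * ∫ s in (0 : ℝ)..2, a s ≤ 1 / M ^ 2 * 1 :=
    mul_le_mul_of_nonneg_left h.a_mass (by positivity)
  simp only [sub_zero, smul_eq_mul]
  linarith

/-! ### The area argument -/

/-- time distribution of a clock on `(0,1)` (same formula as `bdDist`). -/
noncomputable def glDist (K : ℝ → ℝ) (t : ℝ) : ℝ :=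
  (volume {v : ℝ | v ∈ Ioo (0 : ℝ) 1 ∧ K v ≤ t}).toReal

theorem gl_det_dist_mono (K : ℝ → ℝ) : Monotone (glDist K) := by
  intro s t hst
  refine ENNReal.toReal_mono ?_ (measure_mono fun v hv => ⟨hv.1, hv.2.trans hst⟩)
  exact ((measure_mono fun v hv => hv.1).trans_lt (by simp : volume (Ioo (0 : ℝ) 1) < ⊤)).ne

theorem gl_det_dist_mem (K : ℝ → ℝ) (t : ℝ) : glDist K t ∈ Icc (0 : ℝ) 1 := by
  refine ⟨ENNReal.toReal_nonneg, ?_⟩
  have h1 : volume {v : ℝ | v ∈ Ioo (0 : ℝ) 1 ∧ K v ≤ t} ≤ volume (Ioo (0 : ℝ) 1) :=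
    measure_mono fun v hv => hv.1
  have h2 : volume (Ioo (0 : ℝ) 1) = 1 := by simp
  rw [h2] at h1
  have h3 := ENNReal.toReal_mono (by simp) h1
  rw [ENNReal.toReal_one] at h3
  exact h3

/-- **(MASS)** the area argument: a monotone clock `K` that has reached `η` at the mass `v₀`, and whose time distribution is
`L¹`-close to that of a clock `t` of regular initial slope `t v ≤ C v`, has `v₀ > η / (4 C)`. -/
theorem gl_det_mass {K t : ℝ → ℝ} {v₀ η C Q : ℝ} (hK : MonotoneOn K (Ioo 0 1))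
    (hv₀ : v₀ ∈ Ioo (0 : ℝ) 1) (hη : 0 < η) (hKv : η ≤ K v₀) (hC : 0 < C)
    (ht : ∀ v ∈ Ioo (0 : ℝ) 1, t v ≤ C * v) (hηC : η ≤ C) (hηQ : η ≤ Q)
    (hA : ∫ τ in (0 : ℝ)..Q, |glDist K τ - glDist t τ| < η ^ 2 / (8 * C)) :
    η / (4 * C) < v₀ := by
  by_contra hcon
  push Not at hcon
  have hi : ∀ x y, IntervalIntegrable (fun τ => |glDist K τ - glDist t τ|) volume x y := fun x y =>
    ((gl_det_dist_mono K).intervalIntegrable.sub (gl_det_dist_mono t).intervalIntegrable).abs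
  have hpt : ∀ τ ∈ Icc (η / 2) η, τ < η → η / (4 * C) ≤ |glDist K τ - glDist t τ| := by
    intro τ hτ hτη
    have hτ0 : 0 < τ := by linarith [hτ.1]
    have k1 : glDist K τ ≤ v₀ := by
      have hsub : {v : ℝ | v ∈ Ioo (0 : ℝ) 1 ∧ K v ≤ τ} ⊆ Ioo 0 v₀ := by
        intro v hv
        refine ⟨hv.1.1, ?_⟩
        by_contra hge
        push Not at hge
        have := hK hv₀ hv.1 hge
        have h2 : K v ≤ τ := hv.2
        linarith
      have := ENNReal.toReal_mono (by simp) (measure_mono hsub (μ := volume))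
      simpa [glDist, hv₀.1.le] using this
    have k2 : τ / C ≤ glDist t τ := by
      have hτC : τ / C ≤ 1 := by
        rw [div_le_one hC]
        linarith
      have hsub : Ioo 0 (τ / C) ⊆ {v : ℝ | v ∈ Ioo (0 : ℝ) 1 ∧ t v ≤ τ} := by
        intro v hv
        have hvI : v ∈ Ioo (0 : ℝ) 1 := ⟨hv.1, hv.2.trans_le hτC⟩
        refine ⟨hvI, (ht v hvI).trans ?_⟩
        have := hv.2
        rw [lt_div_iff₀ hC] at this
        linarith
      have hfin : volume {v : ℝ | v ∈ Ioo (0 : ℝ) 1 ∧ t v ≤ τ} ≠ ⊤ :=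
        ((measure_mono fun v hv => hv.1).trans_lt (by simp : volume (Ioo (0 : ℝ) 1) < ⊤)).ne
      have := ENNReal.toReal_mono hfin (measure_mono hsub (μ := volume))
      have h0 : 0 ≤ τ / C := by positivity
      simpa [glDist, h0] using this
    have k3 : η / (2 * C) ≤ τ / C := by
      rw [div_le_div_iff₀ (by positivity) hC]
      nlinarith [hτ.1]
    have k4 : η / (2 * C) = η / (4 * C) + η / (4 * C) := by
      field_simp
      ring
    have : η / (4 * C) ≤ glDist t τ - glDist K τ := by linarith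
    rw [abs_sub_comm]
    exact this.trans (le_abs_self _)
  have hnn : ∀ x y, x ≤ y → 0 ≤ ∫ τ in x..y, |glDist K τ - glDist t τ| := fun x y hxy =>
    intervalIntegral.integral_nonneg hxy fun s _ => abs_nonneg _
  have I1 : ∫ _τ in (η / 2)..η, η / (4 * C) ≤ ∫ τ in (η / 2)..η, |glDist K τ - glDist t τ| := by
    refine intervalIntegral.integral_mono_on_of_le_Ioo (by linarith) intervalIntegrable_const
      (hi _ _) fun τ hτ => hpt τ ⟨hτ.1.le, hτ.2.le⟩ hτ.2
  have I2 : ∫ τ in (η / 2)..η, |glDist K τ - glDist t τ|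
      ≤ ∫ τ in (0 : ℝ)..Q, |glDist K τ - glDist t τ| := by
    have a1 := intervalIntegral.integral_add_adjacent_intervals (hi 0 (η / 2)) (hi (η / 2) η)
    have a2 := intervalIntegral.integral_add_adjacent_intervals (hi 0 η) (hi η Q)
    have := hnn 0 (η / 2) (by linarith)
    have := hnn η Q hηQ
    linarith
  rw [intervalIntegral.integral_const, smul_eq_mul] at I1
  have I3 : (η - η / 2) * (η / (4 * C)) = η ^ 2 / (8 * C) := by
    field_simp
    ring
  linarith

/-- (QT) in terms of `glDist`. -/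
theorem gl_det_qt_dist {K K' : ℝ → ℝ} {Q : ℝ} (hQ0 : 0 ≤ Q) (hK : MonotoneOn K (Ioo 0 1))
    (hK' : MonotoneOn K' (Ioo 0 1)) (hb : ∀ v ∈ Ioo (0 : ℝ) 1, K v ∈ Icc 0 Q)
    (hb' : ∀ v ∈ Ioo (0 : ℝ) 1, K' v ∈ Icc 0 Q) :
    ∫ t in (0 : ℝ)..Q, |glDist K t - glDist K' t| = ∫ v in (0 : ℝ)..1, |K v - K' v| :=
  gl_det_qt hQ0 hK hK' hb hb'

/-- (GP) for two time distributions. -/
theorem gl_det_gp_dist (K K' : ℝ → ℝ) {a Q : ℝ} (ha : 0 < a) (haQ : a ≤ Q) :
    ∫ s in (0 : ℝ)..Q, |glDist K s - glDist K' s|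
      ≤ 3 * a + 2 / a * ∫ s in (0 : ℝ)..Q, |∫ u in s..Q, (glDist K u - glDist K' u)| :=
  gl_det_gp (gl_det_dist_mono K) (gl_det_dist_mono K') (gl_det_dist_mem K) (gl_det_dist_mem K') ha haQ

end Claimed.Agent.R286
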