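import Claimed.Agent.R286.Glob.Det

/-!
# Row 286, LL Section 6, scalar coercivity (G2): paper-free parts

Owner: helper292.   Prefix `gl_det_`.   Mathlib + `Glob/Det.lean`.

* `gl_det_wqt_prob`, `gl_det_wqt`   (WQT) weighted layer cake: `∫_0^Q Γ(s) α_K(s) ds = ∫_0^1 (∫_{K v}^Q Γ) dv`  (+ integrability of the right side)
* `gl_det_taylor`, `gl_det_taylor'` `∫_k^{k+d} Γ = Γ(k) d + d² ∫_0^1 (1-y) Γ'(k + y d) dy`
* `gl_det_g2ii_pt`, `gl_det_g2ii`   **(G2.ii)**  `½ ∫ Γ (α_K' - α_t) + ¼ ∫ b (z² - q²) = ∫ ½ b (z-q)² ∫_0^1 (1-y) [1 - b Γ'(t + y b (z-q))] dy dv`,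
                                    `K' = t + b (z - q)`, `q = Γ ∘ t`;   `gl_det_g2ii_nonneg`: `≥ 0` under the secant gap (P5)
* `gl_det_tanh_deriv`, `gl_det_lc_deriv`, `gl_det_sech`, `gl_det_lc_lip`    calculus of `a⁻¹ log cosh (a z)`
* `gl_det_lc`       (LC)  `f(z+y) - f(z) - tanh(a z) y ≥ a / (2 cosh²(a R)) y²` for `|z| + |y| ≤ R`
* `gl_det_cs`       (CS)  `E Y² ≥ c A`, `E Y⁴ ≤ C A²`, `P(Eᶜ) ≤ c²/(4C)`  ⟹  `E[Y²; E] ≥ c A / 2`
* `gl_det_coerc`    (COERC) `E[f(Z+Y) - f(Z) - tanh(a Z) Y] ≥ a / (2 cosh²(a (R+B))) · c A / 2`  (last step of (G2.i))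
-/

set_option autoImplicit false
open MeasureTheory Set Filter Topology

namespace Claimed.Agent.R286

/-! ## Weighted layer cake and (G2.ii) -/

/-- weighted layer cake (Fubini): `∫_0^Q Γ(s) μ{K ≤ s} ds = ∫ (∫_{K v}^Q Γ) dμ(v)`. -/
theorem gl_det_wqt_prob {μ : Measure ℝ} [IsProbabilityMeasure μ] {K Γ : ℝ → ℝ} {Q : ℝ}
    (hK : Measurable K) (hb : ∀ᵐ v ∂μ, K v ∈ Icc 0 Q) (hΓ : ContinuousOn Γ (Icc 0 Q)) :
    Integrable (fun v => ∫ s in (K v)..Q, Γ s) μ ∧
    ∫ s in Ioc 0 Q, Γ s * μ.real {v | K v ≤ s} = ∫ v, (∫ s in (K v)..Q, Γ s) ∂μ := by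
  set ν : Measure ℝ := volume.restrict (Ioc 0 Q) with hν
  set F : ℝ → ℝ → ℝ := fun s v => Γ s * (if K v ≤ s then 1 else 0) with hF
  obtain ⟨C, hC⟩ := isCompact_Icc.exists_bound_of_continuousOn hΓ
  have hΓm : AEStronglyMeasurable Γ ν :=
    (hΓ.mono Ioc_subset_Icc_self).aestronglyMeasurable measurableSet_Ioc
  have hset : MeasurableSet {p : ℝ × ℝ | K p.2 ≤ p.1} :=
    measurableSet_le (hK.comp measurable_snd) measurable_fst
  have hind : Measurable fun p : ℝ × ℝ => (if K p.2 ≤ p.1 then (1 : ℝ) else 0) :=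
    Measurable.ite hset measurable_const measurable_const
  have hint : Integrable (Function.uncurry F) (ν.prod μ) := by
    refine Integrable.of_bound (C := C) ?_ ?_
    · exact (hΓm.comp_fst).mul hind.aestronglyMeasurable
    · have h1 : ∀ᵐ s ∂ν, s ∈ Ioc 0 Q := ae_restrict_mem measurableSet_Ioc
      have h2 : ∀ᵐ p ∂(ν.prod μ), p.1 ∈ Ioc 0 Q :=
        (Measure.quasiMeasurePreserving_fst (μ := ν) (ν := μ)).ae h1
      filter_upwards [h2] with p hp
      have := hC p.1 (Ioc_subset_Icc_self hp)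
      simp only [Function.uncurry, hF]
      split_ifs
      · simpa using this
      · simpa using (norm_nonneg _).trans this
  have hswap := integral_integral_swap (μ := ν) (ν := μ) (f := F) hint
  have hL : ∀ s, ∫ v, F s v ∂μ = Γ s * μ.real {v | K v ≤ s} := by
    intro s
    simp only [hF]
    rw [integral_const_mul]
    congr 1
    have : (fun v => if K v ≤ s then (1 : ℝ) else 0) = {v | K v ≤ s}.indicator 1 := by
      funext v
      simp [indicator_apply]
    rw [this, integral_indicator_one (measurableSet_le hK measurable_const)]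
  have hR : ∀ᵐ v ∂μ, ∫ s, F s v ∂ν = ∫ s in (K v)..Q, Γ s := by
    filter_upwards [hb] with v hv
    have hne : ∀ᵐ s ∂ν, s ≠ K v := by
      apply ae_restrict_of_ae
      simp [ae_iff]
    have e1 : ∫ s, F s v ∂ν = ∫ s, (Ioi (K v)).indicator Γ s ∂ν := by
      refine integral_congr_ae ?_
      filter_upwards [hne] with s hs
      simp only [hF, indicator_apply, mem_Ioi]
      by_cases h : K v ≤ s
      · rw [if_pos h, if_pos (lt_of_le_of_ne h (Ne.symm hs)), mul_one]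
      · rw [if_neg h, if_neg (fun h' => h (le_of_lt h')), mul_zero]
    rw [e1, hν, setIntegral_indicator measurableSet_Ioi, intervalIntegral.integral_of_le hv.2]
    congr 2
    ext s
    simp only [mem_inter_iff, mem_Ioc, mem_Ioi]
    constructor
    · rintro ⟨⟨_, h2⟩, h3⟩
      exact ⟨h3, h2⟩
    · rintro ⟨h1, h2⟩
      exact ⟨⟨lt_of_le_of_lt hv.1 h1, h2⟩, h1⟩
  refine ⟨(hint.integral_prod_right).congr hR, ?_⟩
  calc ∫ s in Ioc 0 Q, Γ s * μ.real {v | K v ≤ s} = ∫ s, ∫ v, F s v ∂μ ∂ν := by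
        simp only [hL, hν]
    _ = ∫ v, ∫ s, F s v ∂ν ∂μ := hswap
    _ = ∫ v, (∫ s in (K v)..Q, Γ s) ∂μ := integral_congr_ae hR

/-- **(WQT)** weighted form of (QT) for one clock monotone on `(0,1)`. -/
theorem gl_det_wqt {K Γ : ℝ → ℝ} {Q : ℝ} (hQ0 : 0 ≤ Q) (hK : MonotoneOn K (Ioo 0 1))
    (hb : ∀ v ∈ Ioo (0 : ℝ) 1, K v ∈ Icc 0 Q) (hΓ : ContinuousOn Γ (Icc 0 Q)) :
    IntervalIntegrable (fun v => ∫ s in (K v)..Q, Γ s) volume 0 1 ∧
    ∫ s in (0 : ℝ)..Q, Γ s * glDist K s = ∫ v in (0 : ℝ)..1, (∫ s in (K v)..Q, Γ s) := by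
  obtain ⟨G, hGm, hGe⟩ := hK.exists_monotone_extension
    ⟨0, by rintro _ ⟨x, hx, rfl⟩; exact (hb x hx).1⟩ ⟨Q, by rintro _ ⟨x, hx, rfl⟩; exact (hb x hx).2⟩
  set μ : Measure ℝ := volume.restrict (Ioo 0 1) with hμ
  have : IsProbabilityMeasure μ := ⟨by simp [hμ]⟩
  have hae : ∀ᵐ v ∂μ, v ∈ Ioo (0 : ℝ) 1 := ae_restrict_mem measurableSet_Ioo
  obtain ⟨k1, k2⟩ := gl_det_wqt_prob (μ := μ) (Q := Q) (Γ := Γ) hGm.measurable
    (by filter_upwards [hae] with v hv; rw [← hGe hv]; exact hb v hv) hΓ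
  have hset : ∀ t, glDist K t = μ.real {v | G v ≤ t} := by
    intro t
    rw [glDist, measureReal_def, hμ,
      Measure.restrict_apply (measurableSet_le hGm.measurable measurable_const)]
    congr 2
    ext v
    constructor
    · rintro ⟨hv, h⟩
      exact ⟨by simpa [← hGe hv] using h, hv⟩
    · rintro ⟨h, hv⟩
      exact ⟨hv, by simpa [hGe hv] using h⟩
  have hcongr : ∀ v ∈ Ioo (0 : ℝ) 1, (∫ s in (G v)..Q, Γ s) = ∫ s in (K v)..Q, Γ s := fun v hv => by
    rw [hGe hv]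
  constructor
  · rw [intervalIntegrable_iff_integrableOn_Ioo_of_le zero_le_one]
    exact (integrableOn_congr_fun hcongr measurableSet_Ioo).1 k1
  · rw [intervalIntegral.integral_of_le hQ0, intervalIntegral.integral_of_le zero_le_one,
      integral_Ioc_eq_integral_Ioo (x := (0 : ℝ)) (y := 1)]
    simp only [hset]
    rw [k2]
    exact setIntegral_congr_fun measurableSet_Ioo hcongr

/-- second order Taylor formula with integral remainder for the primitive of `Γ`. -/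
theorem gl_det_taylor {Γ Γ' : ℝ → ℝ} {Q k d : ℝ}
    (hder : ∀ s ∈ Icc 0 Q, HasDerivWithinAt Γ (Γ' s) (Icc 0 Q) s) (hc : ContinuousOn Γ' (Icc 0 Q))
    (hk : k ∈ Icc 0 Q) (hkd : k + d ∈ Icc 0 Q) :
    ∫ s in k..(k + d), Γ s = Γ k * d + d ^ 2 * ∫ y in (0 : ℝ)..1, (1 - y) * Γ' (k + y * d) := by
  have hsub : uIcc k (k + d) ⊆ Icc 0 Q := uIcc_subset_Icc hk hkd
  have h1 := intervalIntegral.integral_mul_deriv_eq_deriv_mul_of_hasDerivWithinAt
    (a := k) (b := k + d) (u := Γ) (u' := Γ') (v := fun s => s - (k + d)) (v' := fun _ => 1)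
    (fun x hx => (hder x (hsub hx)).mono hsub)
    (fun x _ => ((hasDerivAt_id x).sub_const (k + d)).hasDerivWithinAt)
    ((hc.mono hsub).intervalIntegrable) intervalIntegrable_const
  have h2 : d • ∫ y in (0 : ℝ)..1, (fun s => Γ' s * (s - (k + d))) (k + d * y)
      = ∫ s in (k + d * 0)..(k + d * 1), (fun s => Γ' s * (s - (k + d))) s :=
    intervalIntegral.smul_integral_comp_add_mul (a := (0 : ℝ)) (b := 1)
      (fun s => Γ' s * (s - (k + d))) d k
  simp only [mul_zero, add_zero, mul_one, smul_eq_mul] at h1 h2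
  rw [h1, ← h2]
  have h3 : ∫ y in (0 : ℝ)..1, Γ' (k + d * y) * (k + d * y - (k + d))
      = -(d * ∫ y in (0 : ℝ)..1, (1 - y) * Γ' (k + y * d)) := by
    rw [← intervalIntegral.integral_const_mul, ← intervalIntegral.integral_neg]
    refine intervalIntegral.integral_congr fun y _ => ?_
    simp only [mul_comm d y]
    ring
  rw [h3]
  ring

/-- **(G2.ii), pointwise in the mass**: first variation plus penalty change. -/
theorem gl_det_g2ii_pt {Γ Γ' : ℝ → ℝ} {Q t b z q : ℝ}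
    (hder : ∀ s ∈ Icc 0 Q, HasDerivWithinAt Γ (Γ' s) (Icc 0 Q) s) (hc : ContinuousOn Γ' (Icc 0 Q))
    (ht : t ∈ Icc 0 Q) (hK' : t + b * (z - q) ∈ Icc 0 Q) (hq : q = Γ t) :
    -(1 / 2) * (∫ s in t..(t + b * (z - q)), Γ s) + 1 / 4 * (b * (z ^ 2 - q ^ 2))
      = 1 / 2 * (b * (z - q) ^ 2)
          * ∫ y in (0 : ℝ)..1, (1 - y) * (1 - b * Γ' (t + y * (b * (z - q)))) := by
  rw [gl_det_taylor hder hc ht hK', ← hq]
  have hci : IntervalIntegrable (fun y : ℝ => (1 - y) * Γ' (t + y * (b * (z - q)))) volume 0 1 := by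
    refine ContinuousOn.intervalIntegrable ?_
    refine (continuous_const.sub continuous_id).continuousOn.mul (hc.comp (by fun_prop) ?_)
    intro y hy
    rw [uIcc_of_le zero_le_one] at hy
    have hconv : t + y * (b * (z - q)) = (1 - y) * t + y * (t + b * (z - q)) := by ring
    show t + y * (b * (z - q)) ∈ Icc 0 Q
    rw [hconv]
    constructor
    · have := mul_nonneg (sub_nonneg.2 hy.2) ht.1
      have := mul_nonneg hy.1 hK'.1
      linarith
    · have h1 := mul_le_mul_of_nonneg_left ht.2 (sub_nonneg.2 hy.2)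
      have h2 := mul_le_mul_of_nonneg_left hK'.2 hy.1
      nlinarith
  have e1 : ∫ y in (0 : ℝ)..1, (1 - y) * (1 - b * Γ' (t + y * (b * (z - q))))
      = 1 / 2 - b * ∫ y in (0 : ℝ)..1, (1 - y) * Γ' (t + y * (b * (z - q))) := by
    have : ∀ y : ℝ, (1 - y) * (1 - b * Γ' (t + y * (b * (z - q))))
        = (1 - y) - b * ((1 - y) * Γ' (t + y * (b * (z - q)))) := fun y => by ring
    simp only [this]
    have hi1 : IntervalIntegrable (fun y : ℝ => 1 - y) volume 0 1 :=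
      Continuous.intervalIntegrable (by fun_prop) 0 1
    have hi2 : IntervalIntegrable (fun y : ℝ => y) volume 0 1 :=
      Continuous.intervalIntegrable (by fun_prop) 0 1
    rw [intervalIntegral.integral_sub hi1 (hci.const_mul b), intervalIntegral.integral_const_mul]
    congr 1
    rw [intervalIntegral.integral_sub intervalIntegrable_const hi2]
    simp
    norm_num
  rw [e1]
  ring

/-- interval integrals over `(0,1)` of functions that agree on the open interval. -/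
theorem gl_det_congr_Ioo {f g : ℝ → ℝ} (h : ∀ v ∈ Ioo (0 : ℝ) 1, f v = g v) :
    ∫ v in (0 : ℝ)..1, f v = ∫ v in (0 : ℝ)..1, g v := by
  rw [intervalIntegral.integral_of_le zero_le_one, intervalIntegral.integral_of_le zero_le_one,
    integral_Ioc_eq_integral_Ioo, integral_Ioc_eq_integral_Ioo]
  exact setIntegral_congr_fun measurableSet_Ioo h

/-- **(G2.ii)** the first variation plus the penalty change cancel linearly.   `K' = t + b (z - q)`, `q = Γ ∘ t`. -/
theorem gl_det_g2ii {Γ Γ' t b z q : ℝ → ℝ} {Q : ℝ} (hQ0 : 0 ≤ Q)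
    (hder : ∀ s ∈ Icc 0 Q, HasDerivWithinAt Γ (Γ' s) (Icc 0 Q) s) (hc : ContinuousOn Γ' (Icc 0 Q))
    (ht : MonotoneOn t (Ioo 0 1)) (htb : ∀ v ∈ Ioo (0 : ℝ) 1, t v ∈ Icc 0 Q)
    (hK : MonotoneOn (fun v => t v + b v * (z v - q v)) (Ioo 0 1))
    (hKb : ∀ v ∈ Ioo (0 : ℝ) 1, t v + b v * (z v - q v) ∈ Icc 0 Q)
    (hq : ∀ v ∈ Ioo (0 : ℝ) 1, q v = Γ (t v))
    (hpen : IntervalIntegrable (fun v => b v * (z v ^ 2 - q v ^ 2)) volume 0 1) :
    1 / 2 * (∫ s in (0 : ℝ)..Q, Γ s * (glDist (fun v => t v + b v * (z v - q v)) s - glDist t s))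
        + 1 / 4 * ∫ v in (0 : ℝ)..1, b v * (z v ^ 2 - q v ^ 2)
      = ∫ v in (0 : ℝ)..1, 1 / 2 * (b v * (z v - q v) ^ 2)
          * ∫ y in (0 : ℝ)..1, (1 - y) * (1 - b v * Γ' (t v + y * (b v * (z v - q v)))) := by
  set K' : ℝ → ℝ := fun v => t v + b v * (z v - q v) with hK'
  have hΓ : ContinuousOn Γ (Icc 0 Q) := fun s hs => (hder s hs).continuousWithinAt
  have hΓu : ContinuousOn Γ (uIcc 0 Q) := by rwa [uIcc_of_le hQ0]
  have hΓi : ∀ {x y : ℝ}, x ∈ Icc 0 Q → y ∈ Icc 0 Q → IntervalIntegrable Γ volume x y :=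
    fun hx hy => (hΓ.mono (uIcc_subset_Icc hx hy)).intervalIntegrable
  obtain ⟨i1, w1⟩ := gl_det_wqt hQ0 hK hKb hΓ
  obtain ⟨i2, w2⟩ := gl_det_wqt hQ0 ht htb hΓ
  have j1 : IntervalIntegrable (fun s => Γ s * glDist K' s) volume 0 Q :=
    (gl_det_dist_mono K').intervalIntegrable.continuousOn_mul hΓu
  have j2 : IntervalIntegrable (fun s => Γ s * glDist t s) volume 0 Q :=
    (gl_det_dist_mono t).intervalIntegrable.continuousOn_mul hΓu
  have e1 : ∫ s in (0 : ℝ)..Q, Γ s * (glDist K' s - glDist t s)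
      = ∫ v in (0 : ℝ)..1, ((∫ s in (K' v)..Q, Γ s) - ∫ s in (t v)..Q, Γ s) := by
    simp only [mul_sub]
    rw [intervalIntegral.integral_sub j1 j2, w1, w2, intervalIntegral.integral_sub i1 i2]
  rw [e1, ← intervalIntegral.integral_const_mul, ← intervalIntegral.integral_const_mul,
    ← intervalIntegral.integral_add ((i1.sub i2).const_mul _) (hpen.const_mul _)]
  refine gl_det_congr_Ioo fun v hv => ?_
  have hQQ : Q ∈ Icc 0 Q := ⟨hQ0, le_rfl⟩
  have e2 : (∫ s in (K' v)..Q, Γ s) - ∫ s in (t v)..Q, Γ s = -∫ s in (t v)..(K' v), Γ s := by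
    have := intervalIntegral.integral_add_adjacent_intervals (hΓi (htb v hv) (hKb v hv))
      (hΓi (hKb v hv) hQQ)
    linarith
  rw [e2, ← gl_det_g2ii_pt hder hc (htb v hv) (hKb v hv) (hq v hv)]
  ring

/-- (G2.ii), the sign: under the secant gap (P5) the first variation plus the penalty change is nonnegative. -/
theorem gl_det_g2ii_nonneg {Γ Γ' t b z q : ℝ → ℝ} {Q : ℝ} (hQ0 : 0 ≤ Q)
    (hder : ∀ s ∈ Icc 0 Q, HasDerivWithinAt Γ (Γ' s) (Icc 0 Q) s) (hc : ContinuousOn Γ' (Icc 0 Q))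
    (ht : MonotoneOn t (Ioo 0 1)) (htb : ∀ v ∈ Ioo (0 : ℝ) 1, t v ∈ Icc 0 Q)
    (hK : MonotoneOn (fun v => t v + b v * (z v - q v)) (Ioo 0 1))
    (hKb : ∀ v ∈ Ioo (0 : ℝ) 1, t v + b v * (z v - q v) ∈ Icc 0 Q)
    (hq : ∀ v ∈ Ioo (0 : ℝ) 1, q v = Γ (t v))
    (hpen : IntervalIntegrable (fun v => b v * (z v ^ 2 - q v ^ 2)) volume 0 1)
    (hb : ∀ v ∈ Ioo (0 : ℝ) 1, 0 ≤ b v)
    (hP5 : ∀ v ∈ Ioo (0 : ℝ) 1,
      0 ≤ ∫ y in (0 : ℝ)..1, (1 - y) * (1 - b v * Γ' (t v + y * (b v * (z v - q v))))) :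
    0 ≤ 1 / 2 * (∫ s in (0 : ℝ)..Q, Γ s * (glDist (fun v => t v + b v * (z v - q v)) s - glDist t s))
        + 1 / 4 * ∫ v in (0 : ℝ)..1, b v * (z v ^ 2 - q v ^ 2) := by
  rw [gl_det_g2ii hQ0 hder hc ht htb hK hKb hq hpen, intervalIntegral.integral_of_le zero_le_one,
    integral_Ioc_eq_integral_Ioo]
  refine setIntegral_nonneg measurableSet_Ioo fun v hv => ?_
  exact mul_nonneg (mul_nonneg (by norm_num) (mul_nonneg (hb v hv) (sq_nonneg _))) (hP5 v hv)

/-! ## The convexity remainder -/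

/-- second order Taylor formula with integral remainder for the primitive of `Γ`, on the segment. -/
theorem gl_det_taylor' {Γ Γ' : ℝ → ℝ} {k d : ℝ}
    (hder : ∀ s ∈ uIcc k (k + d), HasDerivWithinAt Γ (Γ' s) (uIcc k (k + d)) s)
    (hc : ContinuousOn Γ' (uIcc k (k + d))) :
    ∫ s in k..(k + d), Γ s = Γ k * d + d ^ 2 * ∫ y in (0 : ℝ)..1, (1 - y) * Γ' (k + y * d) := by
  have h1 := intervalIntegral.integral_mul_deriv_eq_deriv_mul_of_hasDerivWithinAt
    (a := k) (b := k + d) (u := Γ) (u' := Γ') (v := fun s => s - (k + d)) (v' := fun _ => 1)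
    hder (fun x _ => ((hasDerivAt_id x).sub_const (k + d)).hasDerivWithinAt)
    hc.intervalIntegrable intervalIntegrable_const
  have h2 : d • ∫ y in (0 : ℝ)..1, (fun s => Γ' s * (s - (k + d))) (k + d * y)
      = ∫ s in (k + d * 0)..(k + d * 1), (fun s => Γ' s * (s - (k + d))) s :=
    intervalIntegral.smul_integral_comp_add_mul (a := (0 : ℝ)) (b := 1)
      (fun s => Γ' s * (s - (k + d))) d k
  simp only [mul_zero, add_zero, mul_one, smul_eq_mul] at h1 h2
  rw [h1, ← h2]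
  have h3 : ∫ y in (0 : ℝ)..1, Γ' (k + d * y) * (k + d * y - (k + d))
      = -(d * ∫ y in (0 : ℝ)..1, (1 - y) * Γ' (k + y * d)) := by
    rw [← intervalIntegral.integral_const_mul, ← intervalIntegral.integral_neg]
    refine intervalIntegral.integral_congr fun y _ => ?_
    simp only [mul_comm d y]
    ring
  rw [h3]
  ring

/-! ### strong convexity of the terminal function `a⁻¹ log cosh (a z)` -/

theorem gl_det_lin_deriv (a s : ℝ) : HasDerivAt (fun s => a * s) a s := by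
  simpa using (hasDerivAt_id s).const_mul a

theorem gl_det_tanh_deriv (a s : ℝ) :
    HasDerivAt (fun s => Real.tanh (a * s)) (a * (1 - Real.tanh (a * s) ^ 2)) s := by
  have hc : Real.cosh (a * s) ≠ 0 := (Real.cosh_pos _).ne'
  have h1 : HasDerivAt (fun s => Real.sinh (a * s)) (Real.cosh (a * s) * a) s :=
    (gl_det_lin_deriv a s).sinh
  have h2 : HasDerivAt (fun s => Real.cosh (a * s)) (Real.sinh (a * s) * a) s :=
    (gl_det_lin_deriv a s).cosh
  have h3 := h1.fun_div h2 hc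
  have e : (fun s => Real.tanh (a * s)) = fun s => Real.sinh (a * s) / Real.cosh (a * s) := by
    funext x
    exact Real.tanh_eq_sinh_div_cosh _
  rw [e]
  refine h3.congr_deriv ?_
  rw [Real.tanh_eq_sinh_div_cosh]
  field_simp

theorem gl_det_lc_deriv {a : ℝ} (ha : a ≠ 0) (s : ℝ) :
    HasDerivAt (fun s => a⁻¹ * Real.log (Real.cosh (a * s))) (Real.tanh (a * s)) s := by
  have hc : Real.cosh (a * s) ≠ 0 := (Real.cosh_pos _).ne'
  have h2 : HasDerivAt (fun s => Real.cosh (a * s)) (Real.sinh (a * s) * a) s :=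
    (gl_det_lin_deriv a s).cosh
  have h3 := (h2.log hc).const_mul a⁻¹
  refine h3.congr_deriv ?_
  rw [Real.tanh_eq_sinh_div_cosh]
  field_simp

theorem gl_det_sech (x : ℝ) : 1 - Real.tanh x ^ 2 = 1 / Real.cosh x ^ 2 := by
  have hc : Real.cosh x ≠ 0 := (Real.cosh_pos _).ne'
  rw [Real.tanh_eq_sinh_div_cosh]
  field_simp
  linarith [Real.cosh_sq x]

/-- **(LC)** `f(z+y) - f(z) - tanh(a z) y ≥ a / (2 cosh² (a R)) y²` for `f = a⁻¹ log cosh (a ·)`, `|z| + |y| ≤ R`. -/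
theorem gl_det_lc {a : ℝ} (ha : 0 < a) {z y R : ℝ} (hR : |z| + |y| ≤ R) :
    a / (2 * Real.cosh (a * R) ^ 2) * y ^ 2
      ≤ a⁻¹ * Real.log (Real.cosh (a * (z + y))) - a⁻¹ * Real.log (Real.cosh (a * z))
        - Real.tanh (a * z) * y := by
  have hcont : Continuous fun s => Real.tanh (a * s) :=
    continuous_iff_continuousAt.2 fun s => (gl_det_tanh_deriv a s).continuousAt
  have h1 : ∫ s in z..(z + y), Real.tanh (a * s)
      = a⁻¹ * Real.log (Real.cosh (a * (z + y))) - a⁻¹ * Real.log (Real.cosh (a * z)) :=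
    intervalIntegral.integral_eq_sub_of_hasDerivAt (fun s _ => gl_det_lc_deriv ha.ne' s)
      (hcont.intervalIntegrable _ _)
  have hcont' : Continuous fun s => a * (1 - Real.tanh (a * s) ^ 2) :=
    continuous_const.mul (continuous_const.sub (hcont.pow 2))
  have h2 := gl_det_taylor' (Γ := fun s => Real.tanh (a * s))
    (Γ' := fun s => a * (1 - Real.tanh (a * s) ^ 2)) (k := z) (d := y)
    (fun s _ => (gl_det_tanh_deriv a s).hasDerivWithinAt) hcont'.continuousOn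
  rw [← h1, h2]
  set m : ℝ := a / Real.cosh (a * R) ^ 2 with hm
  have hcR : 0 < Real.cosh (a * R) := Real.cosh_pos _
  have h3 : ∫ u in (0 : ℝ)..1, (1 - u) * m
      ≤ ∫ u in (0 : ℝ)..1, (1 - u) * (a * (1 - Real.tanh (a * (z + u * y)) ^ 2)) := by
    refine intervalIntegral.integral_mono_on zero_le_one
      (Continuous.intervalIntegrable (by fun_prop) _ _)
      (Continuous.intervalIntegrable ((continuous_const.sub continuous_id).mul
        (hcont'.comp (continuous_const.add (continuous_id.mul continuous_const)))) _ _)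
      fun u hu => ?_
    refine mul_le_mul_of_nonneg_left ?_ (sub_nonneg.2 hu.2)
    rw [gl_det_sech, hm, div_eq_mul_one_div]
    refine mul_le_mul_of_nonneg_left ?_ ha.le
    refine one_div_le_one_div_of_le (by positivity) ?_
    refine pow_le_pow_left₀ (Real.cosh_pos _).le ?_ 2
    rw [Real.cosh_le_cosh, abs_mul, abs_mul, abs_of_pos ha]
    refine mul_le_mul_of_nonneg_left ?_ ha.le
    have hR0 : 0 ≤ R := (add_nonneg (abs_nonneg _) (abs_nonneg _)).trans hR
    rw [abs_of_nonneg hR0]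
    calc |z + u * y| ≤ |z| + |u * y| := abs_add_le _ _
      _ = |z| + u * |y| := by rw [abs_mul, abs_of_nonneg hu.1]
      _ ≤ |z| + 1 * |y| := by gcongr; exact hu.2
      _ ≤ R := by linarith
  have h4 : ∫ u in (0 : ℝ)..1, (1 - u) * m = m / 2 := by
    rw [intervalIntegral.integral_mul_const]
    have hi2 : IntervalIntegrable (fun y : ℝ => y) volume 0 1 :=
      Continuous.intervalIntegrable (by fun_prop) 0 1
    rw [intervalIntegral.integral_sub intervalIntegrable_const hi2]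
    simp
    ring
  rw [h4] at h3
  have h5 : a / (2 * Real.cosh (a * R) ^ 2) = m / 2 := by
    rw [hm]
    field_simp
  rw [h5]
  have := mul_le_mul_of_nonneg_left h3 (sq_nonneg y)
  linarith

/-- the terminal function is `1`-Lipschitz. -/
theorem gl_det_lc_lip {a : ℝ} (ha : a ≠ 0) (z y : ℝ) :
    |a⁻¹ * Real.log (Real.cosh (a * (z + y))) - a⁻¹ * Real.log (Real.cosh (a * z))| ≤ |y| := by
  have hcont : Continuous fun s => Real.tanh (a * s) :=
    continuous_iff_continuousAt.2 fun s => (gl_det_tanh_deriv a s).continuousAt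
  have h1 : ∫ s in z..(z + y), Real.tanh (a * s)
      = a⁻¹ * Real.log (Real.cosh (a * (z + y))) - a⁻¹ * Real.log (Real.cosh (a * z)) :=
    intervalIntegral.integral_eq_sub_of_hasDerivAt (fun s _ => gl_det_lc_deriv ha s)
      (hcont.intervalIntegrable _ _)
  rw [← h1]
  have := intervalIntegral.norm_integral_le_of_norm_le_const (a := z) (b := z + y)
    (f := fun s => Real.tanh (a * s)) (C := 1) (fun s _ => by
      rw [Real.norm_eq_abs]
      exact (Real.abs_tanh_lt_one _).le)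
  simpa [Real.norm_eq_abs] using this

/-- **(CS)** the compact-set trick: if `E Y² ≥ c A`, `E Y⁴ ≤ C A²` and `P(Eᶜ) ≤ c² / (4 C)` then `E[Y²; E] ≥ c A / 2`. -/
theorem gl_det_cs {Ω : Type*} [MeasurableSpace Ω] {P : Measure Ω} [IsProbabilityMeasure P]
    {Y : Ω → ℝ} {E : Set Ω} (hE : MeasurableSet E) {c C A : ℝ} (hc : 0 < c) (hC : 0 < C)
    (hA : 0 ≤ A) (hY2 : Integrable (fun ω => Y ω ^ 2) P) (hY4 : Integrable (fun ω => Y ω ^ 4) P)
    (h2 : c * A ≤ ∫ ω, Y ω ^ 2 ∂P) (h4 : ∫ ω, Y ω ^ 4 ∂P ≤ C * A ^ 2)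
    (hP : P.real Eᶜ ≤ c ^ 2 / (4 * C)) :
    c * A / 2 ≤ ∫ ω in E, Y ω ^ 2 ∂P := by
  rcases hA.eq_or_lt with hA0 | hApos
  · rw [← hA0]
    simpa using setIntegral_nonneg hE (fun ω _ => sq_nonneg (Y ω))
  set l : ℝ := c / (2 * C * A) with hl
  have hlp : 0 < l := by positivity
  have hsplit : ∫ ω in E, Y ω ^ 2 ∂P + ∫ ω in Eᶜ, Y ω ^ 2 ∂P = ∫ ω, Y ω ^ 2 ∂P :=
    integral_add_compl hE hY2
  have hpt : ∀ ω, Y ω ^ 2 ≤ l / 2 * Y ω ^ 4 + 1 / (2 * l) := by
    intro ω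
    have h := sq_nonneg (l * Y ω ^ 2 - 1)
    have e : l / 2 * Y ω ^ 4 + 1 / (2 * l) - Y ω ^ 2 = (l * Y ω ^ 2 - 1) ^ 2 / (2 * l) := by
      field_simp
      ring
    have : 0 ≤ (l * Y ω ^ 2 - 1) ^ 2 / (2 * l) := by positivity
    linarith
  have hb : ∫ ω in Eᶜ, Y ω ^ 2 ∂P ≤ ∫ ω in Eᶜ, (l / 2 * Y ω ^ 4 + 1 / (2 * l)) ∂P :=
    setIntegral_mono hY2.integrableOn ((hY4.const_mul _).add (integrable_const _)).integrableOn hpt
  have hb2 : ∫ ω in Eᶜ, (l / 2 * Y ω ^ 4 + 1 / (2 * l)) ∂P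
      = l / 2 * ∫ ω in Eᶜ, Y ω ^ 4 ∂P + 1 / (2 * l) * P.real Eᶜ := by
    rw [integral_add (hY4.const_mul _).integrableOn (integrable_const _).integrableOn,
      integral_const_mul, setIntegral_const, smul_eq_mul, mul_comm (P.real Eᶜ)]
  have hb3 : ∫ ω in Eᶜ, Y ω ^ 4 ∂P ≤ ∫ ω, Y ω ^ 4 ∂P :=
    setIntegral_le_integral hY4 (Eventually.of_forall fun ω => by positivity)
  have hb4 : l / 2 * ∫ ω in Eᶜ, Y ω ^ 4 ∂P ≤ l / 2 * (C * A ^ 2) :=
    mul_le_mul_of_nonneg_left (hb3.trans h4) (by positivity)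
  have hb5 : 1 / (2 * l) * P.real Eᶜ ≤ 1 / (2 * l) * (c ^ 2 / (4 * C)) :=
    mul_le_mul_of_nonneg_left hP (by positivity)
  have v1 : l / 2 * (C * A ^ 2) = c * A / 4 := by
    rw [hl]
    field_simp
    ring
  have v2 : 1 / (2 * l) * (c ^ 2 / (4 * C)) = c * A / 4 := by
    rw [hl]
    field_simp
  linarith

/-- **(COERC)** the terminal `log cosh` convexity remainder (last step of (G2.i)).
`Z` = base terminal argument, `Y` = terminal displacement, `|Y| ≤ B`, `E Y² ≥ c A`, `E Y⁴ ≤ C A²`, `P(|Z| > R) ≤ c² / (4 C)`. -/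
theorem gl_det_coerc {Ω : Type*} [MeasurableSpace Ω] {P : Measure Ω} [IsProbabilityMeasure P]
    {Y Z : Ω → ℝ} (hYm : Measurable Y) (hZm : Measurable Z) {a B R c C A : ℝ} (ha : 0 < a)
    (hc : 0 < c) (hC : 0 < C) (hA : 0 ≤ A) (hB : ∀ ω, |Y ω| ≤ B)
    (h2 : c * A ≤ ∫ ω, Y ω ^ 2 ∂P) (h4 : ∫ ω, Y ω ^ 4 ∂P ≤ C * A ^ 2)
    (hP : P.real {ω | R < |Z ω|} ≤ c ^ 2 / (4 * C)) :
    a / (2 * Real.cosh (a * (R + B)) ^ 2) * (c * A / 2)
      ≤ ∫ ω, (a⁻¹ * Real.log (Real.cosh (a * (Z ω + Y ω))) - a⁻¹ * Real.log (Real.cosh (a * Z ω))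
          - Real.tanh (a * Z ω) * Y ω) ∂P := by
  set m : ℝ := a / (2 * Real.cosh (a * (R + B)) ^ 2) with hm
  have hm0 : 0 ≤ m := by positivity
  set E : Set Ω := {ω | |Z ω| ≤ R} with hEdef
  have hE : MeasurableSet E := measurableSet_le hZm.abs measurable_const
  have hEc : Eᶜ = {ω | R < |Z ω|} := by
    ext ω
    simp [hEdef]
  have hbd : ∀ (k : ℕ), Integrable (fun ω => Y ω ^ k) P := fun k => by
    refine Integrable.of_bound (hYm.pow_const k).aestronglyMeasurable (B ^ k)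
      (Eventually.of_forall fun ω => ?_)
    rw [norm_pow, Real.norm_eq_abs]
    exact pow_le_pow_left₀ (abs_nonneg _) (hB ω) k
  have hcs := gl_det_cs hE hc hC hA (hbd 2) (hbd 4) h2 h4 (by rw [hEc]; exact hP)
  set D : Ω → ℝ := fun ω => a⁻¹ * Real.log (Real.cosh (a * (Z ω + Y ω)))
    - a⁻¹ * Real.log (Real.cosh (a * Z ω)) - Real.tanh (a * Z ω) * Y ω with hD
  have hcontT : Continuous fun s => Real.tanh (a * s) :=
    continuous_iff_continuousAt.2 fun s => (gl_det_tanh_deriv a s).continuousAt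
  have hcontF : Continuous fun s => a⁻¹ * Real.log (Real.cosh (a * s)) :=
    continuous_iff_continuousAt.2 fun s => (gl_det_lc_deriv ha.ne' s).continuousAt
  have hDm : Measurable D :=
    ((hcontF.measurable.comp (hZm.add hYm)).sub (hcontF.measurable.comp hZm)).sub
      ((hcontT.measurable.comp hZm).mul hYm)
  have hDi : Integrable D P := by
    refine Integrable.of_bound hDm.aestronglyMeasurable (B + B) (Eventually.of_forall fun ω => ?_)
    rw [Real.norm_eq_abs]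
    refine (abs_sub _ _).trans (add_le_add ((gl_det_lc_lip ha.ne' _ _).trans (hB ω)) ?_)
    rw [abs_mul]
    calc |Real.tanh (a * Z ω)| * |Y ω| ≤ 1 * |Y ω| :=
          mul_le_mul_of_nonneg_right (Real.abs_tanh_lt_one _).le (abs_nonneg _)
      _ ≤ B := by rw [one_mul]; exact hB ω
  have hpt : ∀ ω, E.indicator (fun ω => m * Y ω ^ 2) ω ≤ D ω := by
    intro ω
    by_cases hω : ω ∈ E
    · rw [indicator_of_mem hω]
      exact gl_det_lc ha (add_le_add hω (hB ω))
    · rw [indicator_of_notMem hω]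
      have := gl_det_lc ha (le_refl (|Z ω| + |Y ω|))
      refine le_trans ?_ this
      positivity
  calc m * (c * A / 2) ≤ m * ∫ ω in E, Y ω ^ 2 ∂P := mul_le_mul_of_nonneg_left hcs hm0
    _ = ∫ ω, E.indicator (fun ω => m * Y ω ^ 2) ω ∂P := by
        rw [integral_indicator hE, integral_const_mul]
    _ ≤ ∫ ω, D ω ∂P :=
        integral_mono (((hbd 2).const_mul m).indicator hE) hDi hpt

end Claimed.Agent.R286
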